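import Vale.Agent.P210.G.Defs

/-! P210 G/ConfA: calculus of Christoffel symbols (helper names end with _ConfA). `(g y)⁻¹ = (det)⁻¹ • adjugate` (`Matrix.inv_def`, `Ring.inverse_eq_inv`), entries of `det` and `adjugate` are polynomials (`Matrix.det_apply`, `Matrix.adjugate_apply`, `ContDiffAt.sum`, `contDiffAt_prod`).
`pd_g`: `∑ m, chr m l i * g m j = (1 / 2) (∂l g i j + ∂i g l j - ∂j g l i)` (`Matrix.mul_nonsing_inv`, symmetry of `g x`, of `(g x)⁻¹` and of the derivatives by `EventuallyEq.fderiv_eq`).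
`pd_ginv`: differentiate `∑ m, (g y)⁻¹ i m * g y m j = δ i j` (true near `x`), multiply by the inverse, use `pd_g`. `chr_cm`: `(cm f g y)⁻¹ = exp (-2 f y) • (g y)⁻¹` (`Matrix.inv_eq_right_inv`), product rule. See P210/Scal.lean and P366/Gen1.lean for models. -/

namespace Vale.Agent.P210

open Set Filter Topology Metric MeasureTheory
open scoped ENNReal

noncomputable section

variable {n : ℕ} {g : E n → Matrix (Fin n) (Fin n) ℝ} {f : E n → ℝ} {x : E n}

theorem det_ConfA (h : ∀ a b, ContDiffAt ℝ 3 (fun t => g t a b) x) :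
    ContDiffAt ℝ 3 (fun t => (g t).det) x := by
  simp only [Matrix.det_apply']
  exact ContDiffAt.sum fun σ _ => contDiffAt_const.mul (contDiffAt_prod fun i _ => h _ _)

theorem inv_ConfA (A : Matrix (Fin n) (Fin n) ℝ) (a b : Fin n) :
    A⁻¹ a b = (A.det)⁻¹ * (A.updateRow b (Pi.single a 1)).det := by
  rw [Matrix.inv_def, Ring.inverse_eq_inv', Matrix.smul_apply, Matrix.adjugate_apply, smul_eq_mul]

theorem sy_ConfA (hg : Sm g x) (l i j : Fin n) :
    pd l (fun y => g y i j) x = pd l (fun y => g y j i) x := by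
  have h : (fun y => g y i j) =ᶠ[𝓝 x] fun y => g y j i := hg.sy.mono fun y hy => hy.apply j i
  rw [pd, pd, h.fderiv_eq]

theorem low_ConfA (hg : Sm g x) (k i j : Fin n) : ∑ l, chr g l k i x * g x l j =
    (pd k (fun y => g y i j) x + pd i (fun y => g y k j) x - pd j (fun y => g y k i) x) / 2 := by
  have e : ∀ a, ∑ l, g x j l * (g x)⁻¹ l a = (1 : Matrix (Fin n) (Fin n) ℝ) j a := fun a => by
    rw [← Matrix.mul_apply, Matrix.mul_nonsing_inv _ (Ne.isUnit hg.det)]
  simp only [chr, Finset.mul_sum, Finset.sum_mul]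
  rw [Finset.sum_comm]
  have e2 : ∀ a (T : ℝ), ∑ l, 1 / 2 * ((g x)⁻¹ l a * T) * g x l j =
      (1 : Matrix (Fin n) (Fin n) ℝ) j a * (T / 2) := fun a T => by
    rw [← e, Finset.sum_mul]
    exact Finset.sum_congr rfl fun l _ => by rw [hg.sy.self_of_nhds.apply l j]; ring
  simp only [e2, Matrix.one_apply, ite_mul, one_mul, zero_mul, Finset.sum_ite_eq, Finset.mem_univ,
    if_true]

theorem Sm.ev (hg : Sm g x) : ∀ᶠ y in 𝓝 x, Sm g y := by
  have h1 : ∀ᶠ y in 𝓝 x, ∀ i j, ContDiffAt ℝ 3 (fun y => g y i j) y :=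
    eventually_all.2 fun i => eventually_all.2 fun j => (hg.sm i j).eventually (by simp)
  filter_upwards [h1, hg.sy.eventually_nhds,
    (det_ConfA hg.sm).continuousAt.eventually_ne hg.det] with y a b c
  exact ⟨a, b, c⟩

theorem Sm.det_sm (hg : Sm g x) : ContDiffAt ℝ 3 (fun y => (g y).det) x := by
  exact det_ConfA hg.sm

theorem Sm.inv_sm (hg : Sm g x) (i j : Fin n) : ContDiffAt ℝ 3 (fun y => (g y)⁻¹ i j) x := by
  simp only [inv_ConfA]
  refine (hg.det_sm.inv hg.det).mul (det_ConfA fun c d => ?_)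
  simp only [Matrix.updateRow_apply]
  split_ifs
  exacts [contDiffAt_const, hg.sm c d]

theorem Sm.chr_sm (hg : Sm g x) (k i j : Fin n) : ContDiffAt ℝ 2 (chr g k i j) x := by
  have hp : ∀ a b c, ContDiffAt ℝ 2 (pd a fun y => g y b c) x := fun a b c =>
    ((hg.sm b c).fderiv_right (m := 2) (by norm_num)).clm_apply contDiffAt_const
  exact contDiffAt_const.mul (ContDiffAt.sum fun l _ => ((hg.inv_sm k l).of_le (by norm_num)).mul
    (((hp i j l).add (hp j i l)).sub (hp l i j)))

theorem Sm.scal_cont (hg : Sm g x) : ContinuousAt (scal g) x := by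
  have h0 : ∀ k i j, ContinuousAt (chr g k i j) x := fun k i j => (hg.chr_sm k i j).continuousAt
  have h1 : ∀ a k i j, ContinuousAt (pd a (chr g k i j)) x := fun a k i j =>
    ((hg.chr_sm k i j).continuousAt_fderiv (by simp)).clm_apply continuousAt_const
  have h2 : ∀ i j, ContinuousAt (ric g i j) x := fun i j =>
    tendsto_finsetSum _ fun k _ => ((h1 k k i j).sub (h1 j k i k)).add
      (tendsto_finsetSum _ fun l _ => ((h0 k k l).mul (h0 l i j)).sub ((h0 k j l).mul (h0 l i k)))
  exact tendsto_finsetSum _ fun i _ => tendsto_finsetSum _ fun j _ =>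
    (hg.inv_sm i j).continuousAt.mul (h2 i j)

theorem Sm.chr_symm (hg : Sm g x) (k i j : Fin n) : chr g k i j x = chr g k j i x := by
  unfold chr
  refine congrArg _ (Finset.sum_congr rfl fun l _ => ?_)
  rw [sy_ConfA hg l i j, add_comm]

theorem Sm.pd_g (hg : Sm g x) (l i j : Fin n) :
    pd l (fun y => g y i j) x = ∑ m, (chr g m l i x * g x m j + chr g m l j x * g x i m) := by
  simp only [Finset.sum_add_distrib, hg.sy.self_of_nhds.apply _ i, low_ConfA hg]
  rw [sy_ConfA hg l j i]
  ring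

theorem Sm.pd_ginv (hg : Sm g x) (l i j : Fin n) : pd l (fun y => (g y)⁻¹ i j) x =
    -∑ m, (chr g i l m x * (g x)⁻¹ m j + chr g j l m x * (g x)⁻¹ i m) := by
  let C : Matrix (Fin n) (Fin n) ℝ := Matrix.of fun m a => chr g m l a x
  let D : Matrix (Fin n) (Fin n) ℝ := Matrix.of fun a b => pd l (fun y => (g y)⁻¹ a b) x
  let G : Matrix (Fin n) (Fin n) ℝ := Matrix.of fun a b => pd l (fun y => g y a b) x
  have hu := Ne.isUnit hg.det
  have e : G * (g x)⁻¹ + g x * D = 0 := by
    ext c d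
    have h1 := HasFDerivAt.fun_sum (u := Finset.univ) fun m _ =>
      ((hg.sm c m).differentiableAt (by simp)).hasFDerivAt.fun_mul
        ((hg.inv_sm m d).differentiableAt (by simp)).hasFDerivAt
    have h2 : (fun t => ∑ m, g t c m * (g t)⁻¹ m d) =ᶠ[𝓝 x]
        fun _ => (1 : Matrix (Fin n) (Fin n) ℝ) c d := by
      filter_upwards [hg.ev] with t ht
      rw [← Matrix.mul_apply, Matrix.mul_nonsing_inv _ (Ne.isUnit ht.det)]
    have h3 := congrArg (fun A : E n →L[ℝ] ℝ => A (EuclideanSpace.single l 1))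
      ((h1.congr_of_eventuallyEq h2.symm).unique (hasFDerivAt_const _ x))
    simp only [sum_apply, add_apply, smul_apply, smul_eq_mul, zero_apply] at h3
    rw [Matrix.add_apply, Matrix.mul_apply, Matrix.mul_apply, ← Finset.sum_add_distrib,
      Matrix.zero_apply, ← h3]
    exact Finset.sum_congr rfl fun m _ => by
      simp only [G, D, Matrix.of_apply, pd]
      ring
  have e1 : G = C.transpose * g x + g x * C := by
    ext a b
    simp [G, hg.pd_g, Matrix.mul_apply, C, Finset.sum_add_distrib, mul_comm]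
  have e2 : D = -(C * (g x)⁻¹ + (g x)⁻¹ * C.transpose) := by
    have := congrArg ((g x)⁻¹ * ·) e
    simp only [e1, Matrix.mul_add, Matrix.add_mul, ← Matrix.mul_assoc,
      Matrix.nonsing_inv_mul _ hu, Matrix.one_mul, Matrix.mul_zero] at this
    rw [Matrix.mul_assoc _ (g x), Matrix.mul_nonsing_inv _ hu, Matrix.mul_one,
      add_comm _ (C * _)] at this
    exact eq_neg_of_add_eq_zero_right this
  have h4 : pd l (fun y => (g y)⁻¹ i j) x = D i j := rfl
  rw [h4, e2]
  simp [Matrix.mul_apply, C, Finset.sum_add_distrib, mul_comm]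

theorem Sm.inv_cm (hg : Sm g x) : (cm f g x)⁻¹ = Real.exp (-2 * f x) • (g x)⁻¹ := by
  refine Matrix.inv_eq_right_inv ?_
  rw [cm, Matrix.smul_mul, Matrix.mul_smul, smul_smul, ← Real.exp_add,
    Matrix.mul_nonsing_inv _ (Ne.isUnit hg.det)]
  simp

theorem Sm.chr_cm (hg : Sm g x) (hf : DifferentiableAt ℝ f x) (k i j : Fin n) :
    chr (cm f g) k i j x = chr g k i j x + (dl_Scal j k * pd i f x + dl_Scal i k * pd j f x -
      g x i j * ∑ l, (g x)⁻¹ k l * pd l f x) := by
  have he : Real.exp (-2 * f x) * Real.exp (2 * f x) = 1 := by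
    rw [← Real.exp_add]
    simp
  have hp : ∀ a b c, pd a (fun y => cm f g y b c) x =
      Real.exp (2 * f x) * (pd a (fun y => g y b c) x + 2 * pd a f x * g x b c) := fun a b c => by
    have h1 := ((hf.hasFDerivAt.const_mul 2).exp).fun_mul
      ((hg.sm b c).differentiableAt (by simp)).hasFDerivAt
    have h0 : (fun y => cm f g y b c) = fun y => Real.exp (2 * f y) * g y b c := rfl
    rw [h0, pd, h1.fderiv]
    simp only [pd, add_apply, smul_apply, smul_eq_mul]
    ring
  have hd : ∀ a, dl_Scal a k = ∑ l, (g x)⁻¹ k l * g x a l := fun a => by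
    simp only [hg.sy.self_of_nhds.apply _ a]
    rw [← Matrix.mul_apply, Matrix.nonsing_inv_mul _ (Ne.isUnit hg.det), dl_Scal, Matrix.one_apply]
    simp only [eq_comm]
  unfold chr
  simp only [hg.inv_cm, hp, hd, Matrix.smul_apply, smul_eq_mul, Finset.mul_sum, Finset.sum_mul,
    ← Finset.sum_add_distrib, ← Finset.sum_sub_distrib]
  refine Finset.sum_congr rfl fun l _ => ?_
  linear_combination (1 / 2 * (g x)⁻¹ k l * (pd i (fun y => g y j l) x + 2 * pd i f x * g x j l +
    (pd j (fun y => g y i l) x + 2 * pd j f x * g x i l) -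
    (pd l (fun y => g y i j) x + 2 * pd l f x * g x i j))) * he

end

end Vale.Agent.P210
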